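import Vale.Agent.P283R.Mq.Alg
import Vale.Agent.P283R.Mq.Top
import Vale.Agent.P283R.Tq.Quo10
import Vale.Agent.P283R.T3.All
import Vale.Agent.P283R.Sl.Mq

/-!
# P283R, block MQ: quotients of mild points
-/

set_option linter.all false

open Set CategoryTheory AlgebraicGeometry

noncomputable section

namespace Vale.Agent.P283R.Mq

open Vale.Agent.P289 (Pt DForm dimension)
open Vale.Agent.P287D Vale.Agent.P283M Vale.Agent.P283M.Stm Vale.Agent.P283M.Stm.Var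
open Vale.Agent.P283M.Br Vale.Agent.P283R.Br Vale.Agent.P297Z Vale.Agent.P283R.Gl
open Vale.Agent.P283R.Bc (Qp)
open Vale.Agent.P283R.Et Vale.Agent.P283R.Bx Vale.Agent.P283R.Tq.Q10

variable {X Y Z : Var} {π : Y.X ⟶ Z.X} {ι : Z.K →+* Y.K} {J d : ℕ}
  {G : Subgroup (Y.K ≃ₐ[ℂ] Y.K)} {U : Z.X.Opens} {z : Pt Z.X} {A : Subalgebra ℂ Z.K}
  {χ : A →ₐ[ℂ] ℂ}

/-- the norm of the equation of the canonical class -/
theorem nrm (h : Qp J π ι) (hK : FF Z.K d) (fG : Finite G) (fx : ∀ g, Fix G g ↔ ∃ a, ι a = g)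
    {η : DForm ℂ Y.K d} {s g : Y.K} {m : ℕ} (fr : Br.Frm η s) (s0 : s ≠ 0) (m0 : 0 < m) (g0 : g ≠ 0)
    (hg : ∀ x ∈ π ⁻¹ᵁ U, LocalEq (logCan η 0) m g x) : ∃ (n : ℕ) (c : Z.K), 0 < n ∧ c ≠ 0 ∧
      ∀ (R : Pl Y.K) (P : Pl Z.K) (x : Pt Y.X), Lies ι R P → x ∈ π ⁻¹ᵁ U → Dom R.ring x →
        1 + dsc d ((m : ℝ)⁻¹ • dv (g / s ^ m)) R =
          R.ord (ι P.t) * (1 + dsc d ((n : ℝ)⁻¹ • dv c) P) := by
  let _ := ι.toAlgebra
  have := h.tower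
  have hL := h.ff hK
  have := Fintype.ofFinite G
  obtain ⟨j, hj⟩ := exists_rat (K' := Y.K) hK hL
  obtain ⟨j0, y, hy, -, e'⟩ := id hj
  obtain ⟨D, hD⟩ := (ram d Z.K Y.K (IsScalarTower.toAlgHom ℂ Z.K Y.K) y hK hL hy).1
  have f0 : ∀ σ ∈ G, ∀ a, σ (ι a) = ι a := fun σ m a => (fx _).2 ⟨a, rfl⟩ σ m
  have w0 := div_ne_zero g0 (pow_ne_zero m s0)
  have mR : (m : ℝ) ≠ 0 := Nat.cast_ne_zero.2 m0.ne'
  have a0 := fun (E : Y.PrimeDiv) hE => coef' fr m0 s0 (B := 0) (hg E.1 hE) (pq_is E).dom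
  generalize g / s ^ m = w at w0 a0 ⊢
  have γ0 := div_ne_zero w0 (pow_ne_zero m j0)
  have oγ : ∀ R : Pl Y.K, (R.ord (w / j ^ m) : ℝ) = R.ord w - m * R.ord j := fun R => by
    rw [Pl.ord_div _ w0 (pow_ne_zero m j0), Pl.ord_pow]
    push_cast
    rfl
  generalize w / j ^ m = γ at γ0 oγ
  have a : ∀ E : Y.PrimeDiv, E.1 ∈ π ⁻¹ᵁ U →
      ((pq E).ord γ : ℝ) = m * kap (fun i => ι (y i)) (pq E) := fun E hE => by
    have k := (a0 E hE).trans (neg_eq_zero.2 Rat.cast_zero)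
    simp only [dsc, Pi.sub_apply, Pi.smul_apply, dv, smul_eq_mul, e'] at k
    change kap (fun i => ι (y i)) (pq E) + _ - _ = _ at k
    rw [oγ]
    field_simp at k
    linarith
  have b : ∀ σ ∈ G, ∀ E : Y.PrimeDiv, E.1 ∈ π ⁻¹ᵁ U → (pq E).ord (σ γ) = (pq E).ord γ :=
    fun σ hσ E hE => by
      obtain ⟨P', -, o, k⟩ := (kap' d Y.K _ _ D D hD hD).2.2 σ (pq E)
      obtain ⟨E', e1, rfl⟩ := cj h (f0 σ hσ) E o
      have k1 := a E' (show Pt.map π E'.1 ∈ U from e1 ▸ hE)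
      have k2 : kap (fun i => ι (y i)) (pq E') = kap (fun i => σ (ι (y i))) (pq E) := k
      simp only [f0 σ hσ] at k2
      rw [o, k2, ← a E hE] at k1
      exact_mod_cast k1
  have c : ∀ σ ∈ G, ∀ (R : Pl Y.K) (x : Pt Y.X), x ∈ π ⁻¹ᵁ U → Dom R.ring x →
      R.ord (σ γ) = R.ord γ := fun σ hσ R x hx dm => by
    have σ0 := (map_ne_zero σ).2 γ0
    have o : ∀ E : Y.PrimeDiv, E.1 ⤳ x → (pq E).ord (σ γ / γ) = 0 := fun E k => by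
      rw [Pl.ord_div _ σ0 γ0, b σ hσ E (k.mem_open (π ⁻¹ᵁ U).isOpen hx), sub_self]
    have := dm.ord (g := σ γ / γ) ⟨div_ne_zero σ0 γ0, har Y _ x fun E k => by rw [pq_ord, o E k],
      har Y _ x fun E k => by rw [pq_ord, Pl.ord_inv, o E k, neg_zero]⟩
    rwa [Pl.ord_div _ σ0 γ0, sub_eq_zero] at this
  obtain ⟨c₀, hc⟩ := (fx _).1 (Fre.fix_prod (G := G) γ)
  have p0 : ι c₀ ≠ 0 := hc ▸ Finset.prod_ne_zero_iff.2 fun σ _ => (map_ne_zero σ.1).2 γ0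
  have c0 : c₀ ≠ 0 := (map_ne_zero ι).1 p0
  have n0 : 0 < Fintype.card G := Fintype.card_pos
  refine ⟨Fintype.card G * m, c₀, Nat.mul_pos n0 m0, c0, fun R P x l hx dm => ?_⟩
  refine Eq.trans ?_ (hj.dsc_up hK hL (Nat.mul_pos n0 m0) c0 l)
  have o : R.ord (ι c₀) = Fintype.card G * R.ord γ := by
    rw [hc, P287D.Pl.ord_prod _ _ fun σ _ => (map_ne_zero σ.1).2 γ0,
      Finset.sum_congr rfl fun σ _ => c σ.1 σ.2 R x hx dm]
    simp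
  have nR : (Fintype.card G : ℝ) ≠ 0 := Nat.cast_ne_zero.2 n0.ne'
  change _ = 1 + dsc d (_ • dv (ι c₀ * _)) R
  simp only [dsc, Pi.sub_apply, Pi.smul_apply, dv, smul_eq_mul,
    Pl.ord_mul _ p0 (pow_ne_zero _ j0), Pl.ord_pow, o]
  push_cast
  rw [oγ]
  field_simp
  ring

/-- prime divisors of the chart and the places over them -/
theorem prime (h : Qp J π ι) (bs : Bs (𝟙 Z.X) (RingEquiv.refl Z.K) U z A χ) {P : Pl Z.K}
    (p1 : Prm A P) (p2 : ∀ x ∈ A, x ∈ P.ring) : ∃ y : Z.PrimeDiv, y.1 ∈ U ∧ pq y = P ∧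
      ∀ R, Lies ι R P → R.ord (ι P.t) = 1 ∧ ∃ E : Y.PrimeDiv, E.1 ∈ π ⁻¹ᵁ U ∧ pq E = R := by
  obtain ⟨x, hx, dm⟩ := bs.ctr P p2
  obtain ⟨y, rfl⟩ : ∃ y : Z.PrimeDiv, y.1 = x := ⟨⟨x, bs.codim hx dm p1⟩, rfl⟩
  obtain rfl : pq y = P := pl_eq (pq_is y) dm
  refine ⟨y, hx, rfl, fun R l => ?_⟩
  obtain ⟨E, e1, rfl⟩ := ovr h l
  obtain ⟨y', y1, -, o⟩ := dn h E
  obtain rfl : y' = y := Subtype.ext (y1.symm.trans e1)
  exact ⟨(o _).trans (Pl.ord_t _), E, show Pt.map π E.1 ∈ U from e1 ▸ hx, rfl⟩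

/-- regular functions upstairs are integral -/
theorem int (h : Qp J π ι) (hK : FF Z.K d) (fG : Finite G) (fx : ∀ g, Fix G g ↔ ∃ a, ι a = g)
    (bs : Bs (𝟙 Z.X) (RingEquiv.refl Z.K) U z A χ) {S : Subalgebra ℂ Y.K}
    (hS : ∀ b, b ∈ S ↔ ∀ x ∈ π ⁻¹ᵁ U, RegAt b x) {b : Y.K} (hb : b ∈ S) :
    letI := ι.toAlgebra; IsIntegral A b := by
  let _ := ι.toAlgebra
  have := h.tower
  refine integ fG (fun σ hσ b hb => (hS _).2 fun p hp => har Y _ p fun E c => ?_) fx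
    (fun a ha => (bs.mem a).2 fun x hx => har Z _ x fun y c => ?_) hb
  · obtain ⟨P, k⟩ := ex_cj σ (pq E)
    obtain ⟨E', a, rfl⟩ := cj h (fun a => (fx _).2 ⟨a, rfl⟩ σ hσ) E k
    have m : E.1 ∈ π ⁻¹ᵁ U := c.mem_open (π ⁻¹ᵁ U).isOpen hp
    rw [pq_ord, ← k]
    exact Pl.ord_nonneg_of_mem _ ((pq_is E' _).2 ((hS _).1 hb _ (show Pt.map π E'.1 ∈ U from a ▸ m)))
  · obtain ⟨R, l⟩ := Pb.up_alg (h.ff hK) (pq y)
    obtain ⟨E, e1, rfl⟩ := ovr h l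
    have m : y.1 ∈ U := c.mem_open U.isOpen hx
    rw [pq_ord]
    exact Pl.ord_nonneg_of_mem _ ((l a).2 ((pq_is E _).2
      ((hS _).1 ha _ (show Pt.map π E.1 ∈ U from e1 ▸ m))))

/-- the element of the maximal ideal upstairs -/
theorem elt (h : Qp J π ι) (hU : IsAffineOpen U) (zU : z ∈ U) (hz : IsClosed ({z} : Set (Pt Z.X)))
    (hK : FF Z.K d) (fG : Finite G) (fx : ∀ g, Fix G g ↔ ∃ a, ι a = g)
    (bs : Bs (𝟙 Z.X) (RingEquiv.refl Z.K) U z A χ) {y : Pt Y.X}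
    (hy : ∀ x : Pt Y.X, x.map π = z ↔ x = y) {η : DForm ℂ Y.K d} {s g : Y.K} {m : ℕ} {α β : ℝ}
    (fr : Br.Frm η s) (s0 : s ≠ 0) (m0 : 0 < m) (g0 : g ≠ 0)
    (ml : ∀ (M : Model Y) (E : M.Y.PrimeDiv), E.1.map M.π = y →
      ∃ t, RegAt t y ∧ ¬ RegAt t⁻¹ y ∧ α + β * ord (M.pull t) E <
        1 + (formOrd η M.pull E - (ord (M.pull g) E : ℝ) / m))
    {R : Pl Y.K} {P : Pl Z.K} (l : Lies ι R P) (hP : Thr A χ P)
    (k : ∀ x : A, χ x = 0 → P.rd x = 0) : y ∈ π ⁻¹ᵁ U ∧ Dom R.ring y ∧ ∃ b : Y.K,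
      (letI := ι.toAlgebra; IsIntegral A b) ∧ b ≠ 0 ∧ 0 < R.ord b ∧
        α + β * R.ord b < 1 + dsc d ((m : ℝ)⁻¹ • dv (g / s ^ m)) R := by
  have := h.fin
  obtain ⟨x, x1, x2, x', c, e⟩ := bs.fib ctr_id hP
  obtain rfl : x' = z := e
  obtain rfl : x = x' := (c.antisymm (Am.spec_of_un hU x1 zU fun t ht u =>
    (bs.uz ⟨t, (bs.memZ t).2 (Am.mem_reg.1 ht)⟩).1 fun c => x2.rd u (k _ c))).eq
  obtain ⟨y', e1, dm⟩ := h.up l x2
  obtain rfl := (hy y').1 e1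
  have yU : y' ∈ π ⁻¹ᵁ U := show Pt.map π y' ∈ U from e1 ▸ zU
  have yc : IsClosed ({y'} : Set (Pt Y.X)) := by
    convert hz.preimage π.continuous using 1
    exact Set.ext fun w => (hy w).symm
  obtain ⟨S, χ', bs'⟩ := exists_bs ctr_id pb_id (hU.preimage π) yU yc
  obtain ⟨M, E, c, j⟩ := mod Y R y' dm
  have o := (plc Y M.Y M.pull (mdc Y M).1 E).2 R j
  obtain ⟨t, t1, t2, t3⟩ := ml M E c
  rw [fr _ _ E R j o, o, o] at t3
  obtain ⟨b, hb, b', hb', u', rfl⟩ := bs'.frac (hU.preimage π) yU (g := t) t1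
  replace u' : UnAt b' y' := u'
  have b0 : b ≠ 0 := fun c => t2 (by rw [c, zero_div, inv_zero]; exact ⟨0, map_zero _⟩)
  have q := Pl.ord_pos_of_inv_notMem R.toPlace fun c => t2 ((dm _ t1).2 (div_ne_zero b0 u'.1) c)
  rw [Pl.ord_div _ b0 u'.1, dm.ord u', sub_zero] at t3 q
  refine ⟨yU, dm, b, int h hK fG fx bs bs'.mem hb, b0, q, ?_⟩
  rw [dsc_eq m0 g0 s0]
  exact t3

theorem qp (a : IsFinite π) (b : Surjective π) (c : π ≫ Z.str = Y.str) (e : Pe π ι) (fG : Finite G)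
    (fx : ∀ g, Fix G g ↔ ∃ a, ι a = g)
    (dv : ∀ E : Y.PrimeDiv, ∃ y : Z.PrimeDiv, E.1.map π = y.1 ∧ ∀ a, ord (ι a) E = ord a y) :
    ∃ J, Qp J π ι := by
  obtain ⟨J, w, hw⟩ := Module.Finite.exists_fin (R := FixedPoints.subfield G Y.K) (M := Y.K)
  exact ⟨J, a, b, c, e, ⟨w, fun g => by
    obtain ⟨k, rfl⟩ := (Submodule.mem_span_range_iff_exists_fun _).1 (hw ▸ Submodule.mem_top (x := g))
    choose v hv using fun i => (fx (k i)).1 fun σ m => (k i).2 ⟨σ, m⟩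
    exact ⟨v, Finset.sum_congr rfl fun i _ => by rw [hv]; rfl⟩⟩, dv⟩

theorem scal {α β o v : ℝ} {e : ℤ} (e0 : 0 < e) (a0 : 0 ≤ α) (h : α + β * o < v) :
    α + β * (e * o) < e * v := by
  have e1 : (1 : ℝ) ≤ e := by exact_mod_cast e0
  nlinarith [mul_lt_mul_of_pos_left h (zero_lt_one.trans_le e1), mul_le_mul_of_nonneg_right e1 a0]

/-- **the glue** for a given index -/
theorem glue {Q N : ℕ} {α β ε : ℝ} (hd : 1 ≤ d) (hε : 0 < ε) (hQ : 1 ≤ Q) (N1 : 1 ≤ N) (α0 : 0 ≤ α)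
    (hN : Be d Q α β ε N) {f : X.X ⟶ Z.X} {ω : DForm ℂ X.K d} {B : X.QDiv}
    {D : Z.PrimeDiv → ℚ} (hdim : dimension X.str = d)
    (hω : ω.Nonzero) (hB : Pair (ε ≤ ·) ⊤ ω B) (hf : Contraction f) (hp : P283R.Stm.Birational f)
    (hg : ∃ m g, 0 < m ∧ ∀ y : Pt X.X, y.map f = z → LocalEq (logCan ω B) m g y)
    (hz : IsClosed ({z} : Set (Pt Z.X)))
    (hD : ∀ (E : X.PrimeDiv) (y : Z.PrimeDiv), E.1.map f = y.1 → B E = D y)
    {η : DForm ℂ Z.K d} {r : ℕ} {a : Z.K} (η0 : η.Nonzero) (hU : IsAffineOpen U) (zU : z ∈ U)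
    (r0 : 0 < r) (ha : LocalEq (logCan η 0 + D) r a z)
    (dv1 : ∀ y : Z.PrimeDiv, y.1 ∈ U → (r : ℤ) ∣ ord (a ^ Q) y)
    (h : Qp J π ι) (fG : Finite G) (fx : ∀ g, Fix G g ↔ ∃ a, ι a = g) {y : Pt Y.X}
    (hy : ∀ x : Pt Y.X, x.map π = z ↔ x = y) {η' : DForm ℂ Y.K d} {s g' : Y.K} {m' : ℕ}
    (fr' : Br.Frm η' s) (s0 : s ≠ 0) (m0' : 0 < m') (g0' : g' ≠ 0)
    (hg' : ∀ x ∈ π ⁻¹ᵁ U, LocalEq (logCan η' 0) m' g' x)
    (ml : ∀ (M : Model Y) (E : M.Y.PrimeDiv), E.1.map M.π = y →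
      ∃ t, RegAt t y ∧ ¬ RegAt t⁻¹ y ∧ α + β * ord (M.pull t) E <
        1 + (formOrd η' M.pull E - (ord (M.pull g') E : ℝ) / m')) :
    HasKltComplement f ω B (2 * N) z := by
  obtain ⟨p, hp⟩ := hp
  obtain ⟨m, g, m0, hg⟩ := hg
  obtain ⟨A, χ, bs⟩ := exists_bs ctr_id pb_id hU zU hz
  refine coreE (e := 𝟙 Z.X) (w := z) hd hε hdim hω hB hf hp m0 hg hz (Category.id_comp _) hU zU bs N1
    fun hK g g0 h1 h2 => ?_
  let _ := ι.toAlgebra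
  have := h.tower
  have := h.rank.1
  have := galois (K := Z.K) (G := G) fx
  have hL := h.ff hK
  obtain ⟨n, c, n0, c0, key⟩ := nrm h hK fG fx fr' s0 m0' g0' hg'
  have nR : (n : ℝ) ≠ 0 := Nat.cast_ne_zero.2 n0.ne'
  have zero : ∀ P, Prm A P → (∀ x ∈ A, x ∈ P.ring) → dsc d ((n : ℝ)⁻¹ • dv c) P = 0 :=
    fun P p1 p2 => by
      obtain ⟨-, -, -, k⟩ := prime h bs p1 p2
      obtain ⟨R, l⟩ := Pb.up_alg hL P
      obtain ⟨e1, E, hE, rfl⟩ := k R l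
      have := key _ P _ l hE (pq_is E).dom
      rw [e1, (coef' fr' m0' s0 (B := 0) (hg' _ hE) (pq_is E).dom).trans
        (neg_eq_zero.2 Rat.cast_zero)] at this
      simpa using this.symm
  obtain ⟨F, _, _, _, _, _, _, _, G', S, ρ, hG, hρ, hS⟩ := comp (L := Y.K) (ι := Bool)
    (a := fun j => cond j (a ^ Q) c) (r := fun j => cond j r n) ⟨hK, bs.fg, bs_fr bs hU zU⟩
    (bs_nor bs hU zU) (fun P R p1 p2 l => ((prime h bs p1 p2).choose_spec.2.2 R l).1)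
    (Bool.forall_bool.2 ⟨c0, pow_ne_zero _ ha.1⟩) (Bool.forall_bool.2 ⟨n0, r0⟩)
    (Bool.forall_bool.2 ⟨fun P p1 p2 => by
      obtain ⟨k, hk⟩ := Cb.cn_int (n := d) P
      have e := zero P p1 p2
      simp only [dsc, Pi.sub_apply, Pi.smul_apply, dv, smul_eq_mul, hk] at e
      refine ⟨k, Int.cast_injective (α := ℝ) ?_⟩
      change (P.ord c : ℝ) = ((n * k : ℤ) : ℝ)
      push_cast
      field_simp at e
      linarith, fun P p1 p2 => by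
      obtain ⟨y, hy, rfl, -⟩ := prime h bs p1 p2
      exact pq_ord y _ ▸ dv1 y hy⟩)
  have e : ρ true ^ r = algebraMap Z.K F (a ^ Q) := hρ true
  have e' : ρ false ^ n = algebraMap Z.K F c := hρ false
  have ρ1 : ρ true ≠ 0 := fun k =>
    (map_ne_zero _).2 (pow_ne_zero Q ha.1) (by rw [← e, k, zero_pow r0.ne'])
  have ρ0 : ρ false ≠ 0 := fun k => (map_ne_zero _).2 c0 (by rw [← e', k, zero_pow n0.ne'])
  obtain ⟨w, w0, fr⟩ := frm Z _ hK η η0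
  have h3 : algebraMap Z.K F w ≠ 0 := (map_ne_zero _).2 w0
  refine hN Z.K F G' S A χ m g (ρ true / algebraMap Z.K F w ^ Q) n c (ρ false) hK hG m0 g0 h1
    (fun P hP k => ?_) (div_ne_zero ρ1 (pow_ne_zero _ h3)) (fun R P c k hP => ?_)
    ρ0 (fun R => ?_) (fun P hP k => zero P k hP.1) fun R P l hP k => ?_
  rotate_left 2
  · rw [← e', Pl.ord_pow, Int.cast_mul, Int.cast_natCast, mul_div_cancel_left₀ _ nR]
  · obtain ⟨R', l'⟩ := Pb.down hL hG.aff.ff R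
    have l1 : Lies ι R' P := l'.of_comp (φ := algebraMap Z.K Y.K)
      (by rwa [← IsScalarTower.algebraMap_eq])
    obtain ⟨yU, dm, b, bi, b0, b1, b2⟩ := elt h hU zU hz hK fG fx bs hy fr' s0 m0' g0' ml l1 hP k
    refine ⟨algebraMap Y.K F b, hS _ (bi.map (IsScalarTower.toAlgHom A Y.K F)),
      (map_ne_zero _).2 b0, (l'.ord_pos_iff b).2 b1, ?_⟩
    rw [l'.ord b, IsScalarTower.algebraMap_apply Z.K Y.K F, l'.ord (algebraMap Z.K Y.K P.t),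
      Int.cast_mul, Int.cast_mul, mul_assoc]
    exact scal l'.e_pos α0 (key R' P y l1 yU dm ▸ b2)
  · obtain ⟨E, -, -, -, -, -, -, e⟩ := h2 P hP k
    rw [e, neg_nonpos]
    exact_mod_cast hB.1 E trivial
  obtain ⟨k1, k2⟩ := (fre d _ _ _ _ A hG).1 R P c k
  obtain ⟨E, x, x₀, e0, e1, e2, e3, e4⟩ := h2 P hP k1
  obtain rfl : x = x₀ := Subtype.ext e1
  obtain ⟨P', i1, i2⟩ := pl_of plc x
  obtain rfl : P' = P := Pl.ext' (congrArg _ (Pl.eq_of_le' (v := P'.toPlace) (w := P.toPlace)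
    fun b hb => by
      rcases eq_or_ne b 0 with rfl | b0
      · exact zero_mem _
      exact (Pl.ord_nonneg_iff _ b0).1 (e3 b ▸ i2 b ▸ Pl.ord_nonneg_of_mem _ hb)))
  have f1 := fr _ _ x P' i1 i2
  have f2 : ((ord a x : ℤ) : ℚ) = r * ((formOrd η (RingEquiv.refl Z.K) x : ℚ) + 0 + D x) :=
    ha.2 x e2
  have f3 : (P'.ord a : ℝ) = r * ((formOrd η (RingEquiv.refl Z.K) x : ℝ) + (B E : ℝ)) := by
    rw [hD E x e0, ← i2]
    rw [add_zero] at f2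
    exact_mod_cast f2
  have v := congrArg R.ord e
  have o : ∀ b, R.ord (algebraMap Z.K F b) = P'.ord b := fun b => by
    have := k.ord b
    rwa [k2, one_mul] at this
  rw [o, Pl.ord_pow, Pl.ord_pow] at v
  have v' : (Q : ℝ) * P'.ord a = r * R.ord (ρ true) := by exact_mod_cast v.symm
  have rR : (r : ℝ) ≠ 0 := Nat.cast_ne_zero.2 r0.ne'
  have QR : (Q : ℝ) ≠ 0 := Nat.cast_ne_zero.2 (by omega)
  rw [f3, mul_left_comm, mul_right_inj' rR, f1] at v'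
  simp only [dsc, Pi.sub_apply, Pi.smul_apply, dv, smul_eq_mul] at e4
  rw [Pl.ord_div _ ρ1 (pow_ne_zero _ h3), Pl.ord_pow, o, eq_div_iff QR, div_eq_inv_mul]
  push_cast
  linear_combination v' - Q * e4

end Vale.Agent.P283R.Mq

namespace Vale.Agent.P283R.Sl

open Var P283M.Br
open Vale.Agent.P289 (Pt)

/-- **quotients of mild points** -/
theorem on_mq : On fun d _ Z f ω B z => 3 ≤ d ∧ Crepant f ω B z ∧ MildQuotient d Z z := by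
  intro d hd ε hε R hR
  by_cases c : 3 ≤ d
  swap
  · exact ⟨1, le_rfl, fun _ _ _ _ _ _ _ _ _ _ _ _ u => (c u.1).elim⟩
  have q0 : 1 ≤ ∏ a ∈ R, a.den := Finset.prod_pos (s := R) fun a _ => Rat.den_pos a
  obtain ⟨N, N1, H⟩ := Mq.top Be2.abe (T3.em c) q0 hε
  refine ⟨2 * N, by omega, fun X Z f ω B z hdim hω hB hc hf hz u => (has_iff f ω B _ z).2 ?_⟩
  obtain ⟨-, cr, Y, π, y, ⟨p1, p2, p3, ι, G, p4, ⟨p5, p6⟩, p7⟩, hy, η', m', g', η0', m0', hg', ml⟩ := u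
  obtain ⟨D, η, V, m, g, hD, hdZ, η0, zV, m0, hg, hq⟩ := pair_down (q := ∏ a ∈ R, a.den) hd hdim hω
    hf hz cr fun y => by
      by_cases k : B.coeff y = 0
      · exact ⟨0, by rw [k, mul_zero, Int.cast_zero]⟩
      exact (Br.den R (hc y k) (hR _ (hc y k)).1).elim fun j e => ⟨j, e⟩
  obtain ⟨n, rfl⟩ : ∃ n, d = n + 1 := ⟨d - 1, by omega⟩
  obtain ⟨J, h⟩ := Mq.qp (Y := Y.o) (Z := Z.o) p1 p2 p3 p4 p5 p6 p7
  have hL := h.ff (ffd Z.o _ hdZ)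
  obtain ⟨s, s0, fr⟩ := frm Y.o _ hL η' η0'
  obtain ⟨_, ⟨U, hU, rfl⟩, zU, UV⟩ := Z.X.isBasis_affineOpens.exists_subset_of_mem_open
    (show z ∈ (V : Set Z.X) ∩ (π '' {x : Y.X | LocalEq (logCan η' 0) m' g' x}ᶜ)ᶜ from
      ⟨zV, fun ⟨x, a, b⟩ => a (((hy x).1 b).symm ▸ hg')⟩)
    (V.isOpen.inter (π.isClosedMap _
      (Br.open_localEq (X := Y.o) hL fr 0 m' g').isClosed_compl).isOpen_compl)
  exact Mq.glue (X := X.o) (Y := Y.o) (Z := Z.o) hd hε q0 N1 zero_le_one H hdim hω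
    ((pair_iff _ _ ω B).1 hB) hf cr.1 cr.2 hz hD η0 hU zU m0 (hg z zV)
    (fun E hE => (hq E (UV hE).1).elim fun k hk => dvd_ord (hg _ (UV hE).1) hk) h p5 p6 hy fr s0 m0'
    hg'.1 (fun x hx => by_contra fun k => (UV hx).2 ⟨x, k, rfl⟩) fun M => ml (Model.nw M)

end Vale.Agent.P283R.Sl
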