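import Vale.Agent.P283R.Mq.Gl
import Vale.Agent.P283R.Mq.Top2

/-!
# P283R, block MQ: quotients of points with a mild index one cover
-/

set_option linter.all false

open Set CategoryTheory AlgebraicGeometry

noncomputable section

namespace Vale.Agent.P283R.Mq

open Vale.Agent.P289 (Pt DForm dimension)
open Vale.Agent.P287D Vale.Agent.P283M Vale.Agent.P283M.Stm Vale.Agent.P283M.Stm.Var
open Vale.Agent.P283M.Br Vale.Agent.P283R.Br Vale.Agent.P297Z Vale.Agent.P283R.Gl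
open Vale.Agent.P283R.Bc (Qp)
open Vale.Agent.P283R.Et Vale.Agent.P283R.Bx Vale.Agent.P283R.Tq.Q10

variable {X Y Z : Var} {π : Y.X ⟶ Z.X} {ι : Z.K →+* Y.K} {J d : ℕ}
  {G : Subgroup (Y.K ≃ₐ[ℂ] Y.K)} {U : Z.X.Opens} {z : Pt Z.X} {A : Subalgebra ℂ Z.K}
  {χ : A →ₐ[ℂ] ℂ}

/-- the element of the maximal ideal upstairs -/
theorem elt' (h : Qp J π ι) (hU : IsAffineOpen U) (zU : z ∈ U) (hz : IsClosed ({z} : Set (Pt Z.X)))
    (hK : FF Z.K d) (fG : Finite G) (fx : ∀ g, Fix G g ↔ ∃ a, ι a = g)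
    (bs : Bs (𝟙 Z.X) (RingEquiv.refl Z.K) U z A χ) {y : Pt Y.X}
    (hy : ∀ x : Pt Y.X, x.map π = z ↔ x = y) {η : DForm ℂ Y.K d} {s g : Y.K} {m β : ℕ}
    (fr : Br.Frm η s) (s0 : s ≠ 0) (m0 : 0 < m) (g0 : g ≠ 0)
    (ml : ∀ (M : Model Y) (E : M.Y.PrimeDiv), E.1.map M.π = y →
      ∃ t, RegAt t y ∧ ¬ RegAt t⁻¹ y ∧ ∀ e k : ℤ, 0 < e →
        e * (1 + (formOrd η M.pull E - (ord (M.pull g) E : ℝ) / m)) = k →
          1 + β * e * ord (M.pull t) E < k)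
    {R : Pl Y.K} {P : Pl Z.K} (l : Lies ι R P) (hP : Thr A χ P)
    (k : ∀ x : A, χ x = 0 → P.rd x = 0) : y ∈ π ⁻¹ᵁ U ∧ Dom R.ring y ∧ ∃ b : Y.K,
      (letI := ι.toAlgebra; IsIntegral A b) ∧ b ≠ 0 ∧ 0 < R.ord b ∧ ∀ e k : ℤ, 0 < e →
        e * (1 + dsc d ((m : ℝ)⁻¹ • dv (g / s ^ m)) R) = k → 1 + β * e * R.ord b < k := by
  have := h.fin
  obtain ⟨x, x1, x2, x', c, e⟩ := bs.fib ctr_id hP
  obtain rfl : x' = z := e
  obtain rfl : x = x' := (c.antisymm (Am.spec_of_un hU x1 zU fun t ht u =>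
    (bs.uz ⟨t, (bs.memZ t).2 (Am.mem_reg.1 ht)⟩).1 fun c => x2.rd u (k _ c))).eq
  obtain ⟨y', e1, dm⟩ := h.up l x2
  obtain rfl := (hy y').1 e1
  have yU : y' ∈ π ⁻¹ᵁ U := show Pt.map π y' ∈ U from e1 ▸ zU
  have yc : IsClosed ({y'} : Set (Pt Y.X)) := by
    convert hz.preimage π.continuous using 1
    exact Set.ext fun w => (hy w).symm
  obtain ⟨S, χ', bs'⟩ := exists_bs ctr_id pb_id (hU.preimage π) yU yc
  obtain ⟨M, E, c, j⟩ := mod Y R y' dm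
  have o := (plc Y M.Y M.pull (mdc Y M).1 E).2 R j
  obtain ⟨t, t1, t2, t3⟩ := ml M E c
  rw [fr _ _ E R j o, o, o] at t3
  obtain ⟨b, hb, b', hb', u', rfl⟩ := bs'.frac (hU.preimage π) yU (g := t) t1
  replace u' : UnAt b' y' := u'
  have b0 : b ≠ 0 := fun c => t2 (by rw [c, zero_div, inv_zero]; exact ⟨0, map_zero _⟩)
  have q := Pl.ord_pos_of_inv_notMem R.toPlace fun c => t2 ((dm _ t1).2 (div_ne_zero b0 u'.1) c)
  rw [Pl.ord_div _ b0 u'.1, dm.ord u', sub_zero] at t3 q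
  refine ⟨yU, dm, b, int h hK fG fx bs bs'.mem hb, b0, q, ?_⟩
  rw [dsc_eq m0 g0 s0]
  exact t3

/-- **the glue** for a given index -/
theorem glue' {Q N β : ℕ} {ε : ℝ} (hd : 1 ≤ d) (hε : 0 < ε) (hQ : 1 ≤ Q) (N1 : 1 ≤ N)
    (hN : Be' d Q 1 β ε N) {f : X.X ⟶ Z.X} {ω : DForm ℂ X.K d} {B : X.QDiv}
    {D : Z.PrimeDiv → ℚ} (hdim : dimension X.str = d)
    (hω : ω.Nonzero) (hB : Pair (ε ≤ ·) ⊤ ω B) (hf : Contraction f) (hp : P283R.Stm.Birational f)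
    (hg : ∃ m g, 0 < m ∧ ∀ y : Pt X.X, y.map f = z → LocalEq (logCan ω B) m g y)
    (hz : IsClosed ({z} : Set (Pt Z.X)))
    (hD : ∀ (E : X.PrimeDiv) (y : Z.PrimeDiv), E.1.map f = y.1 → B E = D y)
    {η : DForm ℂ Z.K d} {r : ℕ} {a : Z.K} (η0 : η.Nonzero) (hU : IsAffineOpen U) (zU : z ∈ U)
    (r0 : 0 < r) (ha : LocalEq (logCan η 0 + D) r a z)
    (dv1 : ∀ y : Z.PrimeDiv, y.1 ∈ U → (r : ℤ) ∣ ord (a ^ Q) y)
    (h : Qp J π ι) (fG : Finite G) (fx : ∀ g, Fix G g ↔ ∃ a, ι a = g) {y : Pt Y.X}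
    (hy : ∀ x : Pt Y.X, x.map π = z ↔ x = y) {η' : DForm ℂ Y.K d} {s g' : Y.K} {m' : ℕ}
    (fr' : Br.Frm η' s) (s0 : s ≠ 0) (m0' : 0 < m') (g0' : g' ≠ 0)
    (hg' : ∀ x ∈ π ⁻¹ᵁ U, LocalEq (logCan η' 0) m' g' x)
    (ml : ∀ (M : Model Y) (E : M.Y.PrimeDiv), E.1.map M.π = y →
      ∃ t, RegAt t y ∧ ¬ RegAt t⁻¹ y ∧ ∀ e k : ℤ, 0 < e →
        e * (1 + (formOrd η' M.pull E - (ord (M.pull g') E : ℝ) / m')) = k →
          1 + β * e * ord (M.pull t) E < k) :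
    HasKltComplement f ω B (2 * N) z := by
  obtain ⟨p, hp⟩ := hp
  obtain ⟨m, g, m0, hg⟩ := hg
  obtain ⟨A, χ, bs⟩ := exists_bs ctr_id pb_id hU zU hz
  refine coreE (e := 𝟙 Z.X) (w := z) hd hε hdim hω hB hf hp m0 hg hz (Category.id_comp _) hU zU bs N1
    fun hK g g0 h1 h2 => ?_
  let _ := ι.toAlgebra
  have := h.tower
  have := h.rank.1
  have := galois (K := Z.K) (G := G) fx
  have hL := h.ff hK
  obtain ⟨n, c, n0, c0, key⟩ := nrm h hK fG fx fr' s0 m0' g0' hg'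
  have nR : (n : ℝ) ≠ 0 := Nat.cast_ne_zero.2 n0.ne'
  have zero : ∀ P, Prm A P → (∀ x ∈ A, x ∈ P.ring) → dsc d ((n : ℝ)⁻¹ • dv c) P = 0 :=
    fun P p1 p2 => by
      obtain ⟨-, -, -, k⟩ := prime h bs p1 p2
      obtain ⟨R, l⟩ := Pb.up_alg hL P
      obtain ⟨e1, E, hE, rfl⟩ := k R l
      have := key _ P _ l hE (pq_is E).dom
      rw [e1, (coef' fr' m0' s0 (B := 0) (hg' _ hE) (pq_is E).dom).trans
        (neg_eq_zero.2 Rat.cast_zero)] at this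
      simpa using this.symm
  obtain ⟨F, _, _, _, _, _, _, _, G', S, ρ, hG, hρ, hS⟩ := comp (L := Y.K) (ι := Bool)
    (a := fun j => cond j (a ^ Q) c) (r := fun j => cond j r n) ⟨hK, bs.fg, bs_fr bs hU zU⟩
    (bs_nor bs hU zU) (fun P R p1 p2 l => ((prime h bs p1 p2).choose_spec.2.2 R l).1)
    (Bool.forall_bool.2 ⟨c0, pow_ne_zero _ ha.1⟩) (Bool.forall_bool.2 ⟨n0, r0⟩)
    (Bool.forall_bool.2 ⟨fun P p1 p2 => by
      obtain ⟨k, hk⟩ := Cb.cn_int (n := d) P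
      have e := zero P p1 p2
      simp only [dsc, Pi.sub_apply, Pi.smul_apply, dv, smul_eq_mul, hk] at e
      refine ⟨k, Int.cast_injective (α := ℝ) ?_⟩
      change (P.ord c : ℝ) = ((n * k : ℤ) : ℝ)
      push_cast
      field_simp at e
      linarith, fun P p1 p2 => by
      obtain ⟨y, hy, rfl, -⟩ := prime h bs p1 p2
      exact pq_ord y _ ▸ dv1 y hy⟩)
  have e : ρ true ^ r = algebraMap Z.K F (a ^ Q) := hρ true
  have e' : ρ false ^ n = algebraMap Z.K F c := hρ false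
  have ρ1 : ρ true ≠ 0 := fun k =>
    (map_ne_zero _).2 (pow_ne_zero Q ha.1) (by rw [← e, k, zero_pow r0.ne'])
  have ρ0 : ρ false ≠ 0 := fun k => (map_ne_zero _).2 c0 (by rw [← e', k, zero_pow n0.ne'])
  obtain ⟨w, w0, fr⟩ := frm Z _ hK η η0
  have h3 : algebraMap Z.K F w ≠ 0 := (map_ne_zero _).2 w0
  refine hN Z.K F G' S A χ m g (ρ true / algebraMap Z.K F w ^ Q) n c (ρ false) hK hG m0 g0 h1
    (fun P hP k => ?_) (div_ne_zero ρ1 (pow_ne_zero _ h3)) (fun R P c k hP => ?_)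
    ρ0 (fun R => ?_) (fun P hP k => zero P k hP.1) fun R P l hP k j hj => ?_
  rotate_left 2
  · rw [← e', Pl.ord_pow, Int.cast_mul, Int.cast_natCast, mul_div_cancel_left₀ _ nR]
  · obtain ⟨R', l'⟩ := Pb.down hL hG.aff.ff R
    have l1 : Lies ι R' P := l'.of_comp (φ := algebraMap Z.K Y.K)
      (by rwa [← IsScalarTower.algebraMap_eq])
    obtain ⟨yU, dm, b, bi, b0, b1, b2⟩ := elt' h hU zU hz hK fG fx bs hy fr' s0 m0' g0' ml l1 hP k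
    refine ⟨algebraMap Y.K F b, hS _ (bi.map (IsScalarTower.toAlgHom A Y.K F)),
      (map_ne_zero _).2 b0, (l'.ord_pos_iff b).2 b1, ?_⟩
    rw [IsScalarTower.algebraMap_apply Z.K Y.K F, l'.ord (algebraMap Z.K Y.K P.t),
      Int.cast_mul, mul_assoc] at hj
    have b3 := b2 _ j l'.e_pos (key R' P y l1 yU dm ▸ hj)
    rw [l'.ord b, Int.cast_mul, ← mul_assoc]
    exact_mod_cast b3
  · obtain ⟨E, -, -, -, -, -, -, e⟩ := h2 P hP k
    rw [e, neg_nonpos]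
    exact_mod_cast hB.1 E trivial
  obtain ⟨k1, k2⟩ := (fre d _ _ _ _ A hG).1 R P c k
  obtain ⟨E, x, x₀, e0, e1, e2, e3, e4⟩ := h2 P hP k1
  obtain rfl : x = x₀ := Subtype.ext e1
  obtain ⟨P', i1, i2⟩ := pl_of plc x
  obtain rfl : P' = P := Pl.ext' (congrArg _ (Pl.eq_of_le' (v := P'.toPlace) (w := P.toPlace)
    fun b hb => by
      rcases eq_or_ne b 0 with rfl | b0
      · exact zero_mem _
      exact (Pl.ord_nonneg_iff _ b0).1 (e3 b ▸ i2 b ▸ Pl.ord_nonneg_of_mem _ hb)))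
  have f1 := fr _ _ x P' i1 i2
  have f2 : ((ord a x : ℤ) : ℚ) = r * ((formOrd η (RingEquiv.refl Z.K) x : ℚ) + 0 + D x) :=
    ha.2 x e2
  have f3 : (P'.ord a : ℝ) = r * ((formOrd η (RingEquiv.refl Z.K) x : ℝ) + (B E : ℝ)) := by
    rw [hD E x e0, ← i2]
    rw [add_zero] at f2
    exact_mod_cast f2
  have v := congrArg R.ord e
  have o : ∀ b, R.ord (algebraMap Z.K F b) = P'.ord b := fun b => by
    have := k.ord b
    rwa [k2, one_mul] at this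
  rw [o, Pl.ord_pow, Pl.ord_pow] at v
  have v' : (Q : ℝ) * P'.ord a = r * R.ord (ρ true) := by exact_mod_cast v.symm
  have rR : (r : ℝ) ≠ 0 := Nat.cast_ne_zero.2 r0.ne'
  have QR : (Q : ℝ) ≠ 0 := Nat.cast_ne_zero.2 (by omega)
  rw [f3, mul_left_comm, mul_right_inj' rR, f1] at v'
  simp only [dsc, Pi.sub_apply, Pi.smul_apply, dv, smul_eq_mul] at e4
  rw [Pl.ord_div _ ρ1 (pow_ne_zero _ h3), Pl.ord_pow, o, eq_div_iff QR, div_eq_inv_mul]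
  push_cast
  linear_combination v' - Q * e4

end Vale.Agent.P283R.Mq

namespace Vale.Agent.P283R.Sl

open Var P283M.Br
open Vale.Agent.P289 (Pt)

/-- **quotients of points with a mild index one cover** -/
theorem on_mq' : On fun d _ Z f ω B z => 3 ≤ d ∧ Crepant f ω B z ∧
    ∃ (Y : Var) (π : Y.X ⟶ Z.X) (y : Pt Y.X), FiniteQuotient π ∧
      (∀ x : Pt Y.X, x.map π = z ↔ x = y) ∧ MildCover d (d - 3) Y y := by
  intro d hd ε hε R hR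
  by_cases c : 3 ≤ d
  swap
  · exact ⟨1, le_rfl, fun _ _ _ _ _ _ _ _ _ _ _ _ u => (c u.1).elim⟩
  have q0 : 1 ≤ ∏ a ∈ R, a.den := Finset.prod_pos (s := R) fun a _ => Rat.den_pos a
  have em : Tg.EM d (d + 1) 1 (d - 3 : ℕ) := by
    rw [Nat.cast_sub c]
    exact_mod_cast T3.em c
  obtain ⟨N, N1, H⟩ := Mq.top' Be2.abe em q0 hε
  refine ⟨2 * N, by omega, fun X Z f ω B z hdim hω hB hc hf hz u => (has_iff f ω B _ z).2 ?_⟩
  obtain ⟨-, cr, Y, π, y, ⟨p1, p2, p3, ι, G, p4, ⟨p5, p6⟩, p7⟩, hy, η', m', g', η0', m0', hg', ml⟩ := u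
  obtain ⟨D, η, V, m, g, hD, hdZ, η0, zV, m0, hg, hq⟩ := pair_down (q := ∏ a ∈ R, a.den) hd hdim hω
    hf hz cr fun y => by
      by_cases k : B.coeff y = 0
      · exact ⟨0, by rw [k, mul_zero, Int.cast_zero]⟩
      exact (Br.den R (hc y k) (hR _ (hc y k)).1).elim fun j e => ⟨j, e⟩
  obtain ⟨n, rfl⟩ : ∃ n, d = n + 1 := ⟨d - 1, by omega⟩
  obtain ⟨J, h⟩ := Mq.qp (Y := Y.o) (Z := Z.o) p1 p2 p3 p4 p5 p6 p7
  have hL := h.ff (ffd Z.o _ hdZ)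
  obtain ⟨s, s0, fr⟩ := frm Y.o _ hL η' η0'
  obtain ⟨_, ⟨U, hU, rfl⟩, zU, UV⟩ := Z.X.isBasis_affineOpens.exists_subset_of_mem_open
    (show z ∈ (V : Set Z.X) ∩ (π '' {x : Y.X | LocalEq (logCan η' 0) m' g' x}ᶜ)ᶜ from
      ⟨zV, fun ⟨x, a, b⟩ => a (((hy x).1 b).symm ▸ hg')⟩)
    (V.isOpen.inter (π.isClosedMap _
      (Br.open_localEq (X := Y.o) hL fr 0 m' g').isClosed_compl).isOpen_compl)
  exact Mq.glue' (X := X.o) (Y := Y.o) (Z := Z.o) hd hε q0 N1 H hdim hω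
    ((pair_iff _ _ ω B).1 hB) hf cr.1 cr.2 hz hD η0 hU zU m0 (hg z zV)
    (fun E hE => (hq E (UV hE).1).elim fun k hk => dvd_ord (hg _ (UV hE).1) hk) h p5 p6 hy fr s0 m0'
    hg'.1 (fun x hx => by_contra fun k => (UV hx).2 ⟨x, k, rfl⟩) fun M => ml (Model.nw M)

end Vale.Agent.P283R.Sl
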