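import Vale.Agent.P283R.Tp.Fre
import Vale.Agent.P283R.Ix.Alg
import Vale.Agent.P287D.Hd.Cm
import Vale.Agent.P287D.Pb.Up

/-!
# P283R, block MQ: the compositum of a Galois cover and a Kummer cover
-/

set_option linter.all false

open Set Polynomial
open Vale.Agent.P297Z

noncomputable section

namespace Vale.Agent.P283R.Mq

open Vale.Agent.P287D Vale.Agent.P287D.Cb Fre MulSemiringAction

section

variable {K F : Type} [Field K] [Algebra ℂ K] [Field F] [Algebra ℂ F] [Algebra K F]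
  {G : Subgroup (F ≃ₐ[ℂ] F)} {S : Subalgebra ℂ F} {A : Subalgebra ℂ K} {R : Pl F} {Q : Pl K}

/-- a tame inertia element fixes `x` -/
theorem avg {σ : F ≃ₐ[ℂ] F} {n : ℕ} (n0 : 0 < n) (hn : σ ^ n = 1)
    (h : ∀ u ∈ R.ring, Mx R (σ u - u)) {x t : F} (t0 : t ≠ 0) (ht : σ t = t)
    (o : σ x - x ≠ 0 → R.ord (σ x - x) = R.ord t) : σ x = x := by
  by_contra c
  have y0 := sub_ne_zero.2 c
  have u0 := div_ne_zero y0 t0
  have u1 : R.ord ((σ x - x) / t) = 0 := by rw [Pl.ord_div _ y0 t0, o y0, sub_self]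
  have um := mem_ord u1.ge
  have nm : ∀ i : ℕ, (i : F) ∈ R.ring := fun i => natCast_mem _ i
  have k : ∀ i : ℕ, Mx R (((σ ^ i) x - x) / t - i * ((σ x - x) / t)) := fun i => by
    induction i with
    | zero => simpa using mx_zero
    | succ i ih =>
      have m : ((σ ^ i) x - x) / t ∈ R.ring := by
        simpa using add_mem ih.mem (mul_mem (nm i) um)
      have := (h _ m).add ih
      convert this using 1
      rw [pow_succ', AlgEquiv.mul_apply, map_div₀, map_sub, ht]
      push_cast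
      ring
  have k1 := k n
  rw [hn, AlgEquiv.one_apply, sub_self, zero_div] at k1
  have n1 : (n : ℂ) ≠ 0 := Nat.cast_ne_zero.2 n0.ne'
  have k2 := k1.mul (R.con (-(n : ℂ)⁻¹))
  have e : algebraMap ℂ F (-(n : ℂ)⁻¹) * (0 - n * ((σ x - x) / t)) = (σ x - x) / t := by
    rw [zero_sub, map_neg, neg_mul_neg, ← mul_assoc, ← map_natCast (algebraMap ℂ F), ← map_mul,
      inv_mul_cancel₀ n1, map_one, one_mul]
  rw [e, mx_iff, u1] at k2
  exact k2.elim u0 (lt_irrefl _)

theorem inr_mx {q : Ideal S} {σ : F ≃ₐ[ℂ] F} (st : ∀ a ∈ S, σ a ∈ S) (c : Cen S q R)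
    (lo : ∀ a ∈ R.ring, a ∈ Lo S q) (i : Inr S q σ) : ∀ u ∈ R.ring, Mx R (σ u - u) := by
  intro u hu
  obtain ⟨s, t, tq, rfl⟩ := lo u hu
  have a : ∀ s : S, Mx R (σ s - s) := fun s => let ⟨b, hb, e⟩ := i s; e ▸ (cen_mx c b).1 hb
  rw [cen_mx c] at tq
  have tq' : ¬ Mx R (σ t) := fun k => tq (by simpa using k.sub (a t))
  have t0 : (t : F) ≠ 0 := fun e => tq (e ▸ mx_zero)
  have t1 : σ t ≠ 0 := fun e => tq' (e ▸ mx_zero)
  have := (((a s).mul (c t).1).sub ((a t).mul (c s).1)).mul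
    (mul_mem (inv_mem_of tq) (inv_mem_of tq'))
  convert this using 1
  rw [map_div₀]
  field_simp
  ring

theorem prm (fin : Finite G) (stab : Stab G S) (fix : ∀ h, Fix G h ↔ h ∈ range (algebraMap K F))
    (mem : ∀ a, a ∈ A ↔ algebraMap K F a ∈ S) (d : PD S R) (l : Lies (algebraMap K F) R Q) :
    Prm A Q := by
  have := Fintype.ofFinite G
  obtain ⟨q, c, lo⟩ := d
  have m : ∀ s ∈ S, s ∈ R.ring := fun s hs => (c ⟨s, hs⟩).1
  intro g hg
  obtain ⟨s, t, tq, e⟩ := lo _ ((l g).1 hg)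
  rw [cen_mx c] at tq
  have t0 : (t : F) ≠ 0 := fun e => tq (e ▸ mx_zero)
  have fx : Fix G (algebraMap K F g) := (fix _).2 ⟨g, rfl⟩
  let I : Ideal S :=
    { carrier := {x | (x : F) * algebraMap K F g ∈ S}
      add_mem' := fun {a b} ha hb => by
        change ((a : F) + b) * _ ∈ S
        rw [add_mul]
        exact add_mem ha hb
      zero_mem' := by
        change (0 : F) * _ ∈ S
        rw [zero_mul]
        exact zero_mem _
      smul_mem' := fun c a ha => by
        change ((c : F) * a) * _ ∈ S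
        rw [mul_assoc]
        exact mul_mem c.2 ha }
  obtain ⟨x, hx, xn⟩ : ∃ x ∈ I, ∀ σ : G, ¬ Mx R (σ.1 x) := by
    by_contra n
    push Not at n
    obtain ⟨σ, -, hσ⟩ := (Ideal.subset_union_prime (s := Finset.univ) (f := cj stab R m) 1 1
      (fun σ _ _ _ => cj_prime stab m σ) (I := I)).1 fun x hx => by
        obtain ⟨σ, k⟩ := n x hx
        exact mem_biUnion (Finset.mem_coe.2 (Finset.mem_univ σ)) k
    have k : (⟨(σ⁻¹ : G).1 t, stab _ (σ⁻¹ : G).2 _ t.2⟩ : S) ∈ I := by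
      change (σ⁻¹ : G).1 t * algebraMap K F g ∈ S
      rw [← fx _ (σ⁻¹ : G).2, ← map_mul, e, mul_div_cancel₀ _ t0]
      exact stab _ (σ⁻¹ : G).2 _ s.2
    have k' : Mx R (σ.1 (σ.1.symm t)) := hσ k
    rw [AlgEquiv.apply_symm_apply] at k'
    exact tq k'
  obtain ⟨b, hb⟩ := (fix _).1 (fix_prod (G := G) (x : F))
  have bn : ¬ Mx Q b := fun k => not_mx_prod Finset.univ (fun σ _ => xn σ)
    (hb ▸ (mx_lies l b).2 k)
  have bS : algebraMap K F b ∈ S := hb ▸ prod_mem fun σ _ => stab _ σ.2 _ x.2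
  have b0 : b ≠ 0 := fun e => bn (e ▸ mx_zero)
  refine ⟨g * b, (mem _).2 ?_, b, (mem _).2 bS, fun k => bn ((rd_eq_zero ((l b).2
    (m _ bS))).1 k), by rw [mul_div_cancel_right₀ _ b0]⟩
  classical
  rw [map_mul, hb, ← Finset.mul_prod_erase _ _ (Finset.mem_univ (1 : G)), ← mul_assoc, mul_comm _
    ((1 : G).1 x)]
  exact mul_mem hx (prod_mem fun σ _ => stab _ σ.2 _ x.2)

theorem integ (fin : Finite G) (stab : Stab G S) (fix : ∀ h, Fix G h ↔ h ∈ range (algebraMap K F))
    (mem : ∀ a, algebraMap K F a ∈ S → a ∈ A) {s : F} (hs : s ∈ S) : IsIntegral A s := by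
  have := Fintype.ofFinite G
  refine int_of (monic_charpoly G s) (fun i => ?_) (eval_charpoly G _)
  obtain ⟨a, ha⟩ := (fix _).1 (coeff_fix s i)
  have m : (charpoly G s).coeff i ∈ S := coeff_mem S.toSubring (fun σ => stab σ σ.2 _ hs) i
  exact ⟨⟨a, mem a (ha ▸ m)⟩, ha⟩

theorem galois [IsScalarTower ℂ K F] [FiniteDimensional K F]
    (fix : ∀ h, Fix G h ↔ h ∈ range (algebraMap K F)) : IsGalois K F :=
  IsGalois.of_fixedField_eq_bot K F (eq_bot_iff.2 fun x hx => by
    obtain ⟨a, rfl⟩ := (fix x).1 fun σ m => hx ⟨{ σ with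
      commutes' := fun a => (fix _).2 ⟨a, rfl⟩ σ m }, trivial⟩
    exact IntermediateField.algebraMap_mem _ a)

end

variable {K L F ι : Type} [Field K] [Algebra ℂ K] [Field L] [Algebra ℂ L] [Algebra K L]
  [IsScalarTower ℂ K L] {d : ℕ} {A : Subalgebra ℂ K} {a : ι → K} {r : ι → ℕ}

theorem gq_of [Field F] [Algebra ℂ F] [Algebra K F] [Algebra L F] [IsScalarTower ℂ K F]
    [IsScalarTower ℂ L F] [IsScalarTower K L F] [FiniteDimensional K L] [FiniteDimensional K F]
    [IsGalois K L] [IsGalois K F] (hA : Aff d A) (nor : IsIntegrallyClosed A)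
    (unr : ∀ P R, Prm A P → (∀ x ∈ A, x ∈ P.ring) → Lies (algebraMap K L) R P →
      R.ord (algebraMap K L P.t) = 1) (a0 : ∀ j, a j ≠ 0) (r0 : ∀ j, 0 < r j)
    (dv : ∀ j P, Prm A P → (∀ x ∈ A, x ∈ P.ring) → (r j : ℤ) ∣ P.ord (a j)) {α : ι → F}
    (hα : ∀ j, α j ^ r j = algebraMap K F (a j))
    (gen : ∀ σ : F ≃ₐ[K] F, (∀ x, σ (algebraMap L F x) = algebraMap L F x) →
      (∀ j, σ (α j) = α j) → σ = 1) :
    ∃ (G : Subgroup (F ≃ₐ[ℂ] F)) (S : Subalgebra ℂ F), Gq d G S A ∧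
      ∀ x, IsIntegral A x → x ∈ S := by
  have := IsFractionRing.of_field A K hA.fr
  have : Algebra.FiniteType ℂ A := (Subalgebra.fg_iff_finiteType A).1 hA.fg
  have : IsNoetherianRing A := Algebra.FiniteType.isNoetherianRing ℂ A
  have hL : FF L d := Hd.ff_up hA.ff
  have hF : FF F d := Hd.ff_up hA.ff
  let ρ : (F ≃ₐ[K] F) →* (F ≃ₐ[ℂ] F) :=
    { toFun := fun σ => σ.restrictScalars ℂ
      map_one' := rfl
      map_mul' := fun σ τ => rfl }
  let S := (integralClosure A F).restrictScalars ℂ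
  have mS : ∀ x, x ∈ S ↔ IsIntegral A x := fun x => Iff.rfl
  have : IsFractionRing (integralClosure A F) F :=
    IsIntegralClosure.isFractionRing_of_finite_extension A K F _
  have : Module.Finite A (integralClosure A F) := IsIntegralClosure.finite A K F _
  have ft : Algebra.FiniteType ℂ (integralClosure A F) :=
    .trans (S := A) inferInstance inferInstance
  have nr : IsIntegrallyClosed (integralClosure A F) := (isIntegrallyClosed_iff F).2 fun {x} hx =>
    (IsIntegralClosure.isIntegral_iff (A := integralClosure A F) (R := A)).1 (isIntegral_trans x hx)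
  have fin : Finite ρ.range := (finite_range ρ).to_subtype
  have stab : Stab ρ.range S := by
    rintro _ ⟨σ, rfl⟩ x hx
    exact IsIntegral.map (σ.restrictScalars A).toAlgHom hx
  have fix : ∀ h, Fix ρ.range h ↔ h ∈ range (algebraMap K F) := fun h =>
    ⟨fun k => (IsGalois.mem_bot_iff_fixed (F := K) h).2 fun σ => k _ ⟨σ, rfl⟩, by
      rintro ⟨x, rfl⟩ _ ⟨σ, rfl⟩
      exact σ.commutes x⟩
  have mem : ∀ x, x ∈ A ↔ algebraMap K F x ∈ S := fun x =>
    ⟨fun k => (isIntegral_algebraMap (x := (⟨x, k⟩ : A)) : IsIntegral A _), fun k => by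
      obtain ⟨y, rfl⟩ := IsIntegrallyClosed.isIntegral_iff.1
        ((isIntegral_algebraMap_iff (algebraMap K F).injective).1 k)
      exact y.2⟩
  refine ⟨ρ.range, S, ⟨⟨hF, (Subalgebra.fg_iff_finiteType S).2 ft, fun x => ?_⟩, nr, fin, stab, fix,
    mem, ?_⟩, fun x => (mS x).2⟩
  · obtain ⟨s, t, -, e⟩ := IsFractionRing.div_surjective (A := integralClosure A F) x
    exact ⟨s, t, e.symm⟩
  rintro q R c lo _ ⟨σ, rfl⟩ i
  obtain ⟨P, l⟩ := Pb.down hA.ff hF R
  obtain ⟨R', l'⟩ := Pb.down hL hF R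
  have l1 : Lies (algebraMap K L) R' P := l'.of_comp (by rwa [← IsScalarTower.algebraMap_eq])
  have p1 := prm fin stab fix mem ⟨q, c, lo⟩ l
  have p2 : ∀ x ∈ A, x ∈ P.ring := fun x hx => (l x).2 (c ⟨_, (mem x).1 hx⟩).1
  have t0 : algebraMap K F P.t ≠ 0 := (_root_.map_ne_zero _).2 P.t_ne
  have av : ∀ (x : F) (k : ℤ), (σ x - x ≠ 0 → R.ord (σ x - x) = k * R.ord (algebraMap K F P.t)) →
      σ x = x := fun x k o =>
    avg (σ := ρ σ) (orderOf_pos σ) (by rw [← map_pow, pow_orderOf_eq_one, map_one])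
      (inr_mx (stab _ ⟨σ, rfl⟩) c lo i) (zpow_ne_zero k t0)
      (by rw [← map_zpow₀]; exact σ.commutes _) fun y => (o y).trans (Pl.ord_zpow _ _ _).symm
  rw [gen σ (fun x => av _ (R'.ord (σ.restrictNormal L x - x)) fun _ => ?_) fun j => ?_, map_one]
  · rw [← AlgEquiv.restrictNormal_commutes, ← map_sub, l'.ord, IsScalarTower.algebraMap_apply K L F,
      l'.ord (algebraMap K L P.t), unr P R' p1 p2 l1]
    ring
  · have α0 : α j ≠ 0 := fun k =>
      (_root_.map_ne_zero (algebraMap K F)).2 (a0 j) (by rw [← hα, k, zero_pow (r0 j).ne'])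
    obtain ⟨ζ, hζ⟩ := Ix.root_const (z := σ (α j) / α j) (r0 j) (by
      rw [div_pow, ← map_pow, hα, σ.commutes, div_self ((_root_.map_ne_zero _).2 (a0 j))])
    obtain ⟨k, hk⟩ := dv j P p1 p2
    refine av _ k fun y => ?_
    have e : σ (α j) - α j = algebraMap ℂ F (ζ - 1) * α j := by
      rw [map_sub, hζ, map_one]
      field_simp
    have z0 : algebraMap ℂ F (ζ - 1) ≠ 0 := fun z => y (by rw [e, z, zero_mul])
    have o := congrArg R.ord (hα j)
    rw [Pl.ord_pow, l.ord, hk, mul_left_comm, mul_right_inj' (by exact_mod_cast (r0 j).ne')] at o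
    rw [e, Pl.ord_mul _ z0 α0, o, (Pl.ord_eq_zero_iff _ z0).2 ⟨R.con _, map_inv₀ (algebraMap ℂ F) _ ▸
      R.con _⟩]
    ring

/-- **the compositum** -/
theorem comp [Fintype ι] [FiniteDimensional K L] [IsGalois K L] (hA : Aff d A)
    (nor : IsIntegrallyClosed A)
    (unr : ∀ P R, Prm A P → (∀ x ∈ A, x ∈ P.ring) → Lies (algebraMap K L) R P →
      R.ord (algebraMap K L P.t) = 1) (a0 : ∀ j, a j ≠ 0) (r0 : ∀ j, 0 < r j)
    (dv : ∀ j P, Prm A P → (∀ x ∈ A, x ∈ P.ring) → (r j : ℤ) ∣ P.ord (a j)) :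
    ∃ (F : Type) (_ : Field F) (_ : Algebra ℂ F) (_ : Algebra K F) (_ : Algebra L F)
      (_ : IsScalarTower ℂ K F) (_ : IsScalarTower ℂ L F) (_ : IsScalarTower K L F)
      (G : Subgroup (F ≃ₐ[ℂ] F)) (S : Subalgebra ℂ F) (α : ι → F), Gq d G S A ∧
      (∀ j, α j ^ r j = algebraMap K F (a j)) ∧ ∀ x, IsIntegral A x → x ∈ S := by
  have : CharZero K := charZero_of_injective_algebraMap (algebraMap ℂ K).injective
  let f : K[X] := ∏ j, (X ^ r j - C (a j))
  have f0 : f ≠ 0 := Finset.prod_ne_zero_iff.2 fun j _ => X_pow_sub_C_ne_zero (r0 j) (a j)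
  let F := (f.map (algebraMap K L)).SplittingField
  obtain ⟨p, ps, hp⟩ := IsGalois.is_separable_splitting_field K L
  have := IsSplittingField.mul (K := L) (L := F) p f ps.ne_zero f0
  have : IsScalarTower ℂ K F := .of_algebraMap_eq fun c => by
    rw [IsScalarTower.algebraMap_apply K L F, ← IsScalarTower.algebraMap_apply ℂ K L,
      ← IsScalarTower.algebraMap_apply ℂ L F]
  have : Normal K F := Normal.of_isSplittingField (p * f)
  have : FiniteDimensional K F := Module.Finite.trans L F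
  have : IsGalois K F := {}
  have sp := SplittingField.splits (f.map (algebraMap K L))
  rw [Polynomial.map_map, ← IsScalarTower.algebraMap_eq] at sp
  have ex : ∀ j, ∃ α : F, α ^ r j = algebraMap K F (a j) := fun j => by
    obtain ⟨α, hα⟩ := (sp.of_dvd (Polynomial.map_ne_zero f0) (Polynomial.map_dvd _
      (Finset.dvd_prod_of_mem _ (Finset.mem_univ j)))).exists_eval_eq_zero (by
        rw [degree_map, degree_X_pow_sub_C (r0 j)]
        exact_mod_cast (r0 j).ne')
    exact ⟨α, by simpa [sub_eq_zero] using hα⟩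
  choose α hα using ex
  obtain ⟨G, S, h1, h2⟩ := gq_of (F := F) hA nor unr a0 r0 dv hα fun σ s k => by
    let τ : F →ₐ[L] F := { σ with commutes' := s, map_zero' := map_zero σ, map_one' := map_one σ }
    have e : τ = AlgHom.id L F := AlgHom.ext_of_adjoin_eq_top
      (SplittingField.adjoin_rootSet (f.map (algebraMap K L))) fun β hβ => by
        obtain ⟨j, e⟩ : ∃ j, β ^ r j = algebraMap K F (a j) := by
          have := (mem_rootSet.1 hβ).2
          rw [aeval_map_algebraMap] at this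
          simpa [f, map_prod, Finset.prod_eq_zero_iff, sub_eq_zero] using this
        have α0 : α j ≠ 0 := fun k =>
          (_root_.map_ne_zero (algebraMap K F)).2 (a0 j) (by rw [← hα, k, zero_pow (r0 j).ne'])
        obtain ⟨ζ, hζ⟩ := Ix.root_const (z := β / α j) (r0 j) (by
          rw [div_pow, e, hα, div_self ((_root_.map_ne_zero _).2 (a0 j))])
        have : β = algebraMap K F (algebraMap ℂ K ζ) * α j := by
          rw [← IsScalarTower.algebraMap_apply, hζ, div_mul_cancel₀ _ α0]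
        change σ β = β
        rw [this, map_mul, σ.commutes, k]
    exact AlgEquiv.ext fun x => DFunLike.congr_fun e x
  exact ⟨F, _, _, _, _, inferInstance, inferInstance, inferInstance, G, S, α, h1, hα, h2⟩

end Vale.Agent.P283R.Mq
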